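import Vale.Agent.P099.Link

/-!
The billiard flow in every irrational triangle is ergodic and weakly mixing.
-/

open MeasureTheory

namespace Vale.Agent.Results.P099.WeakMixing

open Vale.Agent.P099

theorem result (P : Fin 3 → ℂ) (hP : AffineIndependent ℝ P)
    (hirr : ∃ i, Irrational (vertexAngle P i / Real.pi)) :
    IsProbabilityMeasure (liouville P) ∧
    (∀ t : ℝ, AEMeasurable (flow P t) (liouville P) ∧
      (liouville P).map (flow P t) = liouville P) ∧
    FlowErgodic (liouville P) (flow P) ∧ FlowWeakMixing (liouville P) (flow P) := by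
  obtain ⟨T, m⟩ := exists_match hP
  have := m.prob
  exact ⟨this, m.mp, ergodic_of_weak (m.weak hirr), m.weak hirr⟩

end Vale.Agent.Results.P099.WeakMixing
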